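import Vale.Agent.P141.H401.PartF

/-!
# P141, line (A), top: the cut of `v` above the families

* `cosA_addF`, `cmp_cut` : the cost is subadditive, `v = cut + far`;
* `cls_cut`, `clsM_cut` : the cut data are class data;
* `PartZ Φ` : the quantifiers with a constant `CD` above any given one;
* `ce1q_of_cutV` : class data are cut to data with a property `Pv`, the far piece has a price, the
  data with the property `Pv` have a price.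
-/

namespace Vale.Agent.P141.H859.CutV

open Finset
open Vale.Agent.P141.PL (Pt loc prd hs cx)
open Vale.Agent.P141.PL.H560 (cbs bx0)
open Vale.Agent.P141.PL.H315 (iv Tri A2 avg)
open Vale.Agent.P141.H48 (US ES cst)
open Vale.Agent.P141.H579 (cosA)
open Vale.Agent.P141.H572 (locL locL_apply)
open Vale.Agent.P141.H305 (Cls ClsM kapM CE1q cmp price_mono)
open Vale.Agent.P141.H401 (StX PartX PartY)

noncomputable section

open scoped Classical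

set_option linter.unusedSectionVars false

/-! ### The cost -/

theorem cosA_addF (A : ℕ → Pt → Prop) (o : ℤ) (K : ℕ) (x : Pt) (F G : Pt → ℝ)
    (F1 F2 F3 : ℕ → Pt → Pt → ℝ) :
    cosA A o K x (fun y => F y + G y) F1 F2 F3 ≤ cosA A o K x F F1 F2 F3 +
      cosA A o K x G F1 F2 F3 := by
  unfold cosA
  rw [← sum_add_distrib]
  refine sum_le_sum fun k _ => ?_
  rw [← mul_add, ← sum_add_distrib]
  refine mul_le_mul_of_nonneg_left (sum_le_sum fun m _ => ?_) (by positivity)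
  have h : loc k (bx0 o m) (fun y => F y + G y) (F1 k m) (F2 k m) (F3 k m) =
      loc k (bx0 o m) F (F1 k m) (F2 k m) (F3 k m) +
        loc k (bx0 o m) G (F1 k m) (F2 k m) (F3 k m) :=
    (locL k (bx0 o m) (F1 k m) (F2 k m) (F3 k m)).map_add F G
  rw [h]
  exact abs_add_le _ _

variable {ι : Type*} [Fintype ι] [DecidableEq ι]

/-- `v` outside `E` -/
def cutV (E : ℤ → ℤ → Prop) (v : ℤ → ℤ → ι → ℝ) : ℤ → ℤ → ι → ℝ :=
  fun z y => if E z y then 0 else v z y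

/-- `v` on `E` -/
def farV (E : ℤ → ℤ → Prop) (v : ℤ → ℤ → ι → ℝ) : ℤ → ℤ → ι → ℝ :=
  fun z y => if E z y then v z y else 0

theorem cut_add_far (E : ℤ → ℤ → Prop) (v : ℤ → ℤ → ι → ℝ) (z y : ℤ) :
    cutV E v z y + farV E v z y = v z y := by
  unfold cutV farV
  split_ifs
  · exact zero_add _
  · exact add_zero _

theorem cutV_of {E : ℤ → ℤ → Prop} {v : ℤ → ℤ → ι → ℝ} {z y : ℤ} (h : E z y) :
    cutV E v z y = 0 := if_pos h

theorem cutV_of_not {E : ℤ → ℤ → Prop} {v : ℤ → ℤ → ι → ℝ} {z y : ℤ} (h : ¬ E z y) :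
    cutV E v z y = v z y := if_neg h

theorem cmp_cut (g : ℤ → ℤ → ℝ) (u v : ℤ → ℤ → ι → ℝ) (E : ℤ → ℤ → Prop) :
    cmp g u v = fun y => cmp g u (cutV E v) y + cmp g u (farV E v) y := by
  funext y
  unfold H305.cmp
  rw [← mul_add, ← dotProduct_add, cut_add_far]

theorem cosA_cutV (A : ℕ → Pt → Prop) (o : ℤ) (K : ℕ) (x : Pt) (g : ℤ → ℤ → ℝ)
    (u v : ℤ → ℤ → ι → ℝ) (E : ℤ → ℤ → Prop) (F1 F2 F3 : ℕ → Pt → Pt → ℝ) :
    cosA A o K x (cmp g u v) F1 F2 F3 ≤ cosA A o K x (cmp g u (cutV E v)) F1 F2 F3 +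
      cosA A o K x (cmp g u (farV E v)) F1 F2 F3 := by
  rw [cmp_cut g u v E]
  exact cosA_addF ..

/-! ### Class data -/

theorem dot_self_nonneg' (w : ι → ℝ) : 0 ≤ w ⬝ᵥ w :=
  sum_nonneg fun i _ => mul_self_nonneg (w i)

theorem avg_mono' {s : Finset ℤ} {f h : ℤ → ℝ} (hh : ∀ y ∈ s, f y ≤ h y) : avg s f ≤ avg s h := by
  unfold PL.H315.avg
  exact mul_le_mul_of_nonneg_left (sum_le_sum hh) (by positivity)

/-- cut data are class data -/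
theorem cls_cut {K : ℕ} {x : Pt} {s r P : ℝ} {U : Tri} {g : ℤ → ℤ → ℝ} {u v : ℤ → ℤ → ι → ℝ}
    (h : Cls K x s r P U g u v) (E : ℤ → ℤ → Prop) : Cls K x s r P U g u (cutV E v) where
  U_g := h.U_g
  g_le := h.g_le
  U_u := h.U_u
  U_v := h.U_v
  u_le := h.u_le
  v_le := fun z hz y hy => by
    by_cases hE : E z y
    · rw [cutV_of hE, dotProduct_zero]
      exact sq_nonneg _
    · rw [cutV_of_not hE]
      exact h.v_le z hz y hy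
  U_u2 := h.U_u2
  U_v2 := h.U_v2
  U_g2 := h.U_g2
  g_row := h.g_row
  u_col := h.u_col
  u_row := h.u_row
  u_pot := h.u_pot
  v_pot := fun z hz w => by
    refine (avg_mono' fun y _ => ?_).trans (h.v_pot z hz w)
    by_cases hE : E z y
    · rw [cutV_of hE, zero_dotProduct]
      nlinarith [sq_nonneg (v z y ⬝ᵥ w)]
    · rw [cutV_of_not hE]

theorem clsM_cut {K : ℕ} {x : Pt} {s r P κ : ℝ} {U : Tri} {g : ℤ → ℤ → ℝ} {u v : ℤ → ℤ → ι → ℝ}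
    (h : ClsM K x s r P κ U g u v) (E : ℤ → ℤ → Prop) : ClsM K x s r P κ U g u (cutV E v) where
  toCls := cls_cut h.toCls E
  act := fun z hz => (h.act z hz).imp_right fun h1 => ⟨h1.1, fun y => by
    by_cases hE : E z y
    · exact cutV_of hE
    · rw [cutV_of_not hE]
      exact h1.2 y⟩
  r_le := h.r_le

/-- the far piece is class data too -/
theorem farV_eq (E : ℤ → ℤ → Prop) (v : ℤ → ℤ → ι → ℝ) :
    farV E v = cutV (fun z y => ¬ E z y) v := by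
  funext z y
  unfold farV cutV
  by_cases hE : E z y
  · rw [if_pos hE, if_neg (not_not.2 hE)]
  · rw [if_neg hE, if_pos hE]

theorem clsM_far {K : ℕ} {x : Pt} {s r P κ : ℝ} {U : Tri} {g : ℤ → ℤ → ℝ} {u v : ℤ → ℤ → ι → ℝ}
    (h : ClsM K x s r P κ U g u v) (E : ℤ → ℤ → Prop) : ClsM K x s r P κ U g u (farV E v) := by
  rw [farV_eq]
  exact clsM_cut h _

/-! ### The quantifiers, constant above a given one -/

/-- **The quantifiers of the maker, `CD` above any given constant.** -/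
def PartZ (Φ : StX) : Prop :=
  ∀ a : ℝ, 0 < a → a ≤ 1 →
  ∃ es : ℝ, 0 < es ∧ ∀ e0 : ℝ, 0 < e0 → e0 ≤ es →
  ∃ k8s : ℝ, 0 < k8s ∧ ∀ k8 : ℝ, 0 < k8 → k8 ≤ k8s →
  ∃ k3s : ℝ, 0 < k3s ∧ ∀ k3 : ℝ, 0 < k3 → k3 ≤ k3s →
  ∃ gam c1 d0 del : ℝ, 0 < gam ∧ 0 < c1 ∧ 0 < d0 ∧ 0 < del ∧ ∀ c : ℝ, 0 ≤ c → c ≤ c1 →
  ∀ d : ℝ, 0 < d → d ≤ d0 →
  ∀ Kt e cP L : ℝ, 0 < Kt → 1 ≤ e → 0 ≤ cP → 1 ≤ L → ∀ CV : ℝ, 1 ≤ CV →
  ∃ CD : ℝ, CV ≤ CD ∧ ∃ C : ℝ, 0 ≤ C ∧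
  ∀ t : ℝ, 0 < t → t ≤ 1 → ∀ (n : ℕ) (ez : ℝ) (F1 F2 F3 : ℕ → Pt → ℝ),
    US n (Kt * t ^ (1 - c)) e cP F1 → US n (Kt * t ^ (1 - c)) e cP F3 → ES n ez cP F2 →
  ∀ o : ℤ, o = 1 ∨ o = -1 → ∀ K ≤ n, ∀ (x : Pt) (ι : Type) [Fintype ι] [DecidableEq ι]
    (s r : ℝ) (U : Tri) (g : ℤ → ℤ → ℝ) (u v : ℤ → ℤ → ι → ℝ), 0 < s → 1 ≤ r →
    ClsM K x s r (L * t ^ (2 - c) * √s) (kapM L t a s r) U g u v →
    Φ ι ⟨a, e0, k8, k3, c, d, Kt, e, cP, L, CD, t⟩ n ez F1 F2 F3 o K x s r U g u v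
      (C * (t ^ (1 + gam) * s ^ (5 / 4 : ℝ) * √ez * 8 ^ K) * r ^ (-del))

theorem toZ {Φ : StX} (H : PartX Φ) : PartZ Φ := by
  intro a ha ha1
  obtain ⟨es, hes, H⟩ := H a ha ha1
  refine ⟨es, hes, fun e0 he0 he0' => ?_⟩
  obtain ⟨k8s, hk8s, H⟩ := H e0 he0 he0'
  refine ⟨k8s, hk8s, fun k8 hk8 hk8' => ?_⟩
  obtain ⟨k3s, hk3s, H⟩ := H k8 hk8 hk8'
  refine ⟨k3s, hk3s, fun k3 hk3 hk3' => ?_⟩
  obtain ⟨gam, c1, d0, del, hgam, hc1, hd0, hdel, H⟩ := H k3 hk3 hk3'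
  refine ⟨gam, c1, d0, del, hgam, hc1, hd0, hdel, fun c hc hcc d hd hdd Kt e cP L hK he hcP hL
    CV hCV => ?_⟩
  exact ⟨CV, le_rfl, H c hc hcc d hd hdd Kt e cP L hK he hcP hL CV hCV⟩

theorem PartZ.toY {Φ : StX} (H : PartZ Φ) : PartY Φ := by
  intro a ha ha1
  obtain ⟨es, hes, H⟩ := H a ha ha1
  refine ⟨es, hes, fun e0 he0 he0' => ?_⟩
  obtain ⟨k8s, hk8s, H⟩ := H e0 he0 he0'
  refine ⟨k8s, hk8s, fun k8 hk8 hk8' => ?_⟩
  obtain ⟨k3s, hk3s, H⟩ := H k8 hk8 hk8'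
  refine ⟨k3s, hk3s, fun k3 hk3 hk3' => ?_⟩
  obtain ⟨gam, c1, d0, del, hgam, hc1, hd0, hdel, H⟩ := H k3 hk3 hk3'
  refine ⟨gam, c1, d0, del, hgam, hc1, hd0, hdel, fun c hc hcc d hd hdd Kt e cP L hK he hcP hL => ?_⟩
  obtain ⟨CD, hCD, C, hC, H⟩ := H c hc hcc d hd hdd Kt e cP L hK he hcP hL 1 le_rfl
  exact ⟨CD, hCD, C, hC, H⟩

/-- **Two makers together, `CD` above any given constant.** -/
theorem PartZ.add {Φ1 Φ2 Φ : StX} (H1 : PartZ Φ1) (H2 : PartZ Φ2)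
    (h : ∀ (ι : Type) [Fintype ι] [DecidableEq ι] (p : H401.Num) (CD1 CD2 : ℝ) (n : ℕ) (ez : ℝ)
      (F1 F2 F3 : ℕ → Pt → ℝ) (o : ℤ) (K : ℕ) (x : Pt) (s r : ℝ) (U : Tri) (g : ℤ → ℤ → ℝ)
      (u v : ℤ → ℤ → ι → ℝ) (B1 B2 B : ℝ), 0 < p.t → 0 < s → 1 ≤ r → o = 1 ∨ o = -1 →
      p.CD ≤ CD1 → p.CD ≤ CD2 → 1 ≤ p.CD →
      Φ1 ι { p with CD := CD1 } n ez F1 F2 F3 o K x s r U g u v B1 →
      Φ2 ι { p with CD := CD2 } n ez F1 F2 F3 o K x s r U g u v B2 →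
      B1 + B2 ≤ B → Φ ι p n ez F1 F2 F3 o K x s r U g u v B) : PartX Φ := by
  intro a ha ha1
  obtain ⟨es1, hes1, H1⟩ := H1 a ha ha1
  obtain ⟨es2, hes2, H2⟩ := H2 a ha ha1
  refine ⟨min es1 es2, lt_min hes1 hes2, fun e0 he0 he0' => ?_⟩
  obtain ⟨k81, hk81, H1⟩ := H1 e0 he0 (he0'.trans (min_le_left _ _))
  obtain ⟨k82, hk82, H2⟩ := H2 e0 he0 (he0'.trans (min_le_right _ _))
  refine ⟨min k81 k82, lt_min hk81 hk82, fun k8 hk8 hk8' => ?_⟩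
  obtain ⟨k31, hk31, H1⟩ := H1 k8 hk8 (hk8'.trans (min_le_left _ _))
  obtain ⟨k32, hk32, H2⟩ := H2 k8 hk8 (hk8'.trans (min_le_right _ _))
  refine ⟨min k31 k32, lt_min hk31 hk32, fun k3 hk3 hk3' => ?_⟩
  obtain ⟨g1, c1, d1, l1, hg1, hc1, hd1, hl1, H1⟩ := H1 k3 hk3 (hk3'.trans (min_le_left _ _))
  obtain ⟨g2, c2, d2, l2, hg2, hc2, hd2, hl2, H2⟩ := H2 k3 hk3 (hk3'.trans (min_le_right _ _))
  refine ⟨min g1 g2, min c1 c2, min d1 d2, min l1 l2, lt_min hg1 hg2, lt_min hc1 hc2,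
    lt_min hd1 hd2, lt_min hl1 hl2, fun c hc hcc d hd hdd Kt e cP L hK he hcP hL CV hCV => ?_⟩
  obtain ⟨CD1, hCD1, C1, hC1, H1⟩ := H1 c hc (hcc.trans (min_le_left _ _)) d hd
    (hdd.trans (min_le_left _ _)) Kt e cP L hK he hcP hL CV hCV
  obtain ⟨CD2, hCD2, C2, hC2, H2⟩ := H2 c hc (hcc.trans (min_le_right _ _)) d hd
    (hdd.trans (min_le_right _ _)) Kt e cP L hK he hcP hL CV hCV
  refine ⟨C1 + C2, by positivity, ?_⟩
  intro t ht ht1 n ez F1 F2 F3 h1 h3 h2 o ho K hKn x ι _ _ s r U g u v hs hr hcls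
  have k1 := H1 t ht ht1 n ez F1 F2 F3 h1 h3 h2 o ho K hKn x ι s r U g u v hs hr hcls
  have k2 := H2 t ht ht1 n ez F1 F2 F3 h1 h3 h2 o ho K hKn x ι s r U g u v hs hr hcls
  have m1 := price_mono ht ht1 hr hs.le (Real.sqrt_nonneg ez) hC1 (min_le_left g1 g2)
    (min_le_left l1 l2) K
  have m2 := price_mono ht ht1 hr hs.le (Real.sqrt_nonneg ez) hC2 (min_le_right g1 g2)
    (min_le_right l1 l2) K
  refine h ι ⟨a, e0, k8, k3, c, d, Kt, e, cP, L, CV, t⟩ CD1 CD2 n ez F1 F2 F3 o K x s r U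
    g u v _ _ _ ht hs hr ho hCD1 hCD2 hCV k1 k2
    ((add_le_add m1 m2).trans (le_of_eq ?_))
  ring

/-! ### The cut of `v` -/

/-- properties of class data -/
abbrev PrV : Type 1 :=
  ∀ (ι : Type) [Fintype ι] [DecidableEq ι], H401.Num → ℕ → ℝ → (ℕ → Pt → ℝ) → (ℕ → Pt → ℝ) →
    (ℕ → Pt → ℝ) → ℤ → ℕ → Pt → ℝ → ℝ → Tri → (ℤ → ℤ → ℝ) → (ℤ → ℤ → ι → ℝ) →
    (ℤ → ℤ → ι → ℝ) → Prop

/-- **The cut of `v` has a price**: outside `E` the data have the property `Pv`, the piece on `E`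
is cheap. -/
def CutSt (Pv : PrV) : Prop :=
  PartY fun ι _ _ p n ez F1 F2 F3 o K x s r U g u v B => ∃ E : ℤ → ℤ → Prop,
    Pv ι p n ez F1 F2 F3 o K x s r U g u (cutV E v) ∧
    cosA (p.al U K) o K x (cmp g u (farV E v)) (fun k _ => F1 k) (fun k _ => F2 k)
      (fun k _ => F3 k) ≤ B

/-- **The price of the data with the property `Pv`**, any constant of the property. -/
def PriceV (Pv : PrV) : Prop :=
  PartX fun ι _ _ p n ez F1 F2 F3 o K x s r U g u v B =>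
    Pv ι p n ez F1 F2 F3 o K x s r U g u v →
    cosA (p.al U K) o K x (cmp g u v) (fun k _ => F1 k) (fun k _ => F2 k) (fun k _ => F3 k) ≤ B

/-- `PriceV` when the property is weaker for larger constants -/
theorem priceV_of_Z {Pv : PrV}
    (hm : ∀ (ι : Type) [Fintype ι] [DecidableEq ι] (p : H401.Num) (CD : ℝ) (n : ℕ) (ez : ℝ)
      (F1 F2 F3 : ℕ → Pt → ℝ) (o : ℤ) (K : ℕ) (x : Pt) (s r : ℝ) (U : Tri) (g : ℤ → ℤ → ℝ)
      (u v : ℤ → ℤ → ι → ℝ), 1 ≤ p.CD → p.CD ≤ CD →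
      Pv ι p n ez F1 F2 F3 o K x s r U g u v →
        Pv ι { p with CD := CD } n ez F1 F2 F3 o K x s r U g u v)
    (H : PartZ fun ι _ _ p n ez F1 F2 F3 o K x s r U g u v B =>
      Pv ι p n ez F1 F2 F3 o K x s r U g u v →
      cosA (p.al U K) o K x (cmp g u v) (fun k _ => F1 k) (fun k _ => F2 k) (fun k _ => F3 k) ≤ B) :
    PriceV Pv := by
  refine PartZ.add H H (Φ := fun ι _ _ p n ez F1 F2 F3 o K x s r U g u v B =>
    Pv ι p n ez F1 F2 F3 o K x s r U g u v →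
    cosA (p.al U K) o K x (cmp g u v) (fun k _ => F1 k) (fun k _ => F2 k) (fun k _ => F3 k) ≤ B) ?_
  intro ι _ _ p CD1 CD2 n ez F1 F2 F3 o K x s r U g u v B1 B2 B _ _ _ _ hC1 hC2 hC h1 h2 hB hP
  have k1 : cosA (p.al U K) o K x (cmp g u v) (fun k _ => F1 k) (fun k _ => F2 k)
      (fun k _ => F3 k) ≤ B1 := h1 (hm ι p CD1 n ez F1 F2 F3 o K x s r U g u v hC hC1 hP)
  have k2 : cosA (p.al U K) o K x (cmp g u v) (fun k _ => F1 k) (fun k _ => F2 k)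
      (fun k _ => F3 k) ≤ B2 := h2 (hm ι p CD2 n ez F1 F2 F3 o K x s r U g u v hC hC2 hP)
  have k0 : 0 ≤ cosA (p.al U K) o K x (cmp g u v) (fun k _ => F1 k) (fun k _ => F2 k)
      (fun k _ => F3 k) := H579.cosA_nonneg ..
  linarith

/-- **The class statement from the cut of `v` and the price of the cut data.** -/
theorem ce1q_of_cutV {Pv : PrV} (H1 : CutSt Pv) (H2 : PriceV Pv) : CE1q := by
  intro a ha ha1
  obtain ⟨es1, hes1, H1⟩ := H1 a ha ha1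
  obtain ⟨es2, hes2, H2⟩ := H2 a ha ha1
  obtain ⟨k81, hk81, H1⟩ := H1 (min es1 es2) (lt_min hes1 hes2) (min_le_left _ _)
  obtain ⟨k82, hk82, H2⟩ := H2 (min es1 es2) (lt_min hes1 hes2) (min_le_right _ _)
  obtain ⟨k31, hk31, H1⟩ := H1 (min k81 k82) (lt_min hk81 hk82) (min_le_left _ _)
  obtain ⟨k32, hk32, H2⟩ := H2 (min k81 k82) (lt_min hk81 hk82) (min_le_right _ _)
  obtain ⟨g1, c1, d1, l1, hg1, hc1, hd1, hl1, H1⟩ := H1 (min k31 k32) (lt_min hk31 hk32)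
    (min_le_left _ _)
  obtain ⟨g2, c2, d2, l2, hg2, hc2, hd2, hl2, H2⟩ := H2 (min k31 k32) (lt_min hk31 hk32)
    (min_le_right _ _)
  refine ⟨min g1 g2, min c1 c2, min d1 d2, min l1 l2, lt_min hg1 hg2, lt_min hc1 hc2,
    lt_min hd1 hd2, lt_min hl1 hl2, fun c hc hcc d hd hdd Kt e cP L hK he hcP hL => ?_⟩
  obtain ⟨CD, hCD, C1, hC1, H1⟩ := H1 c hc (hcc.trans (min_le_left _ _)) d hd
    (hdd.trans (min_le_left _ _)) Kt e cP L hK he hcP hL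
  obtain ⟨C2, hC2, H2⟩ := H2 c hc (hcc.trans (min_le_right _ _)) d hd
    (hdd.trans (min_le_right _ _)) Kt e cP L hK he hcP hL CD hCD
  refine ⟨C1 + C2, by positivity, ?_⟩
  intro t ht ht1 n ez F1 F2 F3 h1 h3 h2 o ho K hKn x ι _ _ s r U g u v hs hr hcls
  obtain ⟨E, hE, k1⟩ := H1 t ht ht1 n ez F1 F2 F3 h1 h3 h2 o ho K hKn x ι s r U g u v hs hr hcls
  have k2 := H2 t ht ht1 n ez F1 F2 F3 h1 h3 h2 o ho K hKn x ι s r U g u (cutV E v) hs hr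
    (clsM_cut hcls E) hE
  have m1 := price_mono ht ht1 hr hs.le (Real.sqrt_nonneg ez) hC1 (min_le_left g1 g2)
    (min_le_left l1 l2) K
  have m2 := price_mono ht ht1 hr hs.le (Real.sqrt_nonneg ez) hC2 (min_le_right g1 g2)
    (min_le_right l1 l2) K
  refine (cosA_cutV _ o K x g u v E _ _ _).trans ((add_le_add (k2.trans m2) (k1.trans m1)).trans
    (le_of_eq ?_))
  ring

end

end Vale.Agent.P141.H859.CutV
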